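import Vale.Agent.P040.H251.SelInst

/-!
# P040 (helper688): the selector value depends only on the values at the points of its colour

* `vt_lip`: `vt` is 1-Lipschitz for the sup norm (from monotonicity and translation);
* `vt_thr`: threshold form.  If every point of colour `true` is on the same side of the threshold
  in both situations (and never on it), the selector values are on the same side;
* `vt_ind`: two valid functions which agree on the points of colour `true` have the same `vt`;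
* `Rob c F`: `F` is an interior point of the set of valid functions; `Rob` passes to `c.del` at a
  minimal leaf, and valid + robust is robust;
* `swp`: exchange of the two pages together with `E ↦ -E`.
-/

set_option linter.unusedSectionVars false
set_option linter.unusedVariables false

namespace Vale.Agent.P040.H688

open Vale.Agent.P040.H906 P040H251

variable {W : Type*} [LinearOrder W]

theorem vt_val {col : W → Bool} {c : Cfg W} {E : W → ℝ} {M : ℝ} (hg : c.Good)
    (hcol : ColOK col c) (hv : c.Valid E M) : ∃ a ∈ c.S, col a = true ∧ vt col c E = E a := by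
  obtain ⟨a, ha⟩ := exists_out' hg hcol hv
  exact ⟨a, ha.mem, ha.col, vt_eq hg hcol ha⟩

theorem vt_lip {col : W → Bool} {c : Cfg W} {E E' : W → ℝ} {M M' ε : ℝ} (hg : c.Good)
    (hcol : ColOK col c) (hv : c.Valid E M) (hv' : c.Valid E' M')
    (h : ∀ x ∈ c.S, |E' x - E x| ≤ ε) : |vt col c E' - vt col c E| ≤ ε := by
  have h1 := vt_mono _ c rfl hg hcol E' (fun y => E y + ε) M' M hv' (valid_add ε hv)
    (fun x hx => by have := abs_le.1 (h x hx); linarith)
  have h2 := vt_mono _ c rfl hg hcol E (fun y => E' y + ε) M M' hv (valid_add ε hv')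
    (fun x hx => by have := abs_le.1 (h x hx); linarith)
  rw [vt_add ε hg hcol hv] at h1
  rw [vt_add ε hg hcol hv'] at h2
  rw [abs_le]
  constructor <;> linarith

theorem continuousOn_vt_sgm {col : W → Bool} {c : Cfg W} {E₀ E₁ : W → ℝ} {M₀ M₁ : ℝ} (hg : c.Good)
    (hcol : ColOK col c) (hv₀ : c.Valid E₀ M₀) (hv₁ : c.Valid E₁ M₁) :
    ContinuousOn (fun t => vt col c (sgm E₀ E₁ t)) (Set.Icc (0 : ℝ) 1) := by
  classical
  obtain ⟨K, hK0, hK⟩ : ∃ K : ℝ, 0 ≤ K ∧ ∀ x ∈ c.S, |E₁ x - E₀ x| ≤ K := by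
    refine ⟨∑ x ∈ c.S, |E₁ x - E₀ x|, Finset.sum_nonneg fun x _ => abs_nonneg _, fun x hx => ?_⟩
    exact Finset.single_le_sum (f := fun x => |E₁ x - E₀ x|) (fun y _ => abs_nonneg _) hx
  have hL : LipschitzOnWith ⟨K, hK0⟩ (fun t => vt col c (sgm E₀ E₁ t)) (Set.Icc (0 : ℝ) 1) := by
    refine LipschitzOnWith.of_dist_le_mul fun s hs t ht => ?_
    rw [Real.dist_eq, Real.dist_eq]
    refine vt_lip hg hcol (valid_sgm ht.1 ht.2 hv₀ hv₁) (valid_sgm hs.1 hs.2 hv₀ hv₁)
      (fun x hx => ?_)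
    have e : sgm E₀ E₁ s x - sgm E₀ E₁ t x = (s - t) * (E₁ x - E₀ x) := by unfold sgm; ring
    rw [e, abs_mul, mul_comm]
    exact mul_le_mul_of_nonneg_right (hK x hx) (abs_nonneg _)
  exact hL.continuousOn

/-- threshold form of the independence of the values at the other colour -/
theorem vt_thr_imp {col : W → Bool} {c : Cfg W} {E₀ E₁ : W → ℝ} {M₀ M₁ θ₀ θ₁ : ℝ} (hg : c.Good)
    (hcol : ColOK col c) (hv₀ : c.Valid E₀ M₀) (hv₁ : c.Valid E₁ M₁)
    (h : ∀ x ∈ c.S, col x = true → (θ₀ < E₀ x ∧ θ₁ < E₁ x) ∨ (E₀ x < θ₀ ∧ E₁ x < θ₁))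
    (h0 : θ₀ < vt col c E₀) : θ₁ < vt col c E₁ := by
  by_contra hcon
  push Not at hcon
  have hc := (continuousOn_vt_sgm hg hcol hv₀ hv₁).sub
    (f := fun t => vt col c (sgm E₀ E₁ t)) (g := fun t : ℝ => (1 - t) * θ₀ + t * θ₁)
    (by fun_prop)
  have e0 : vt col c (sgm E₀ E₁ 0) - ((1 - 0) * θ₀ + 0 * θ₁) = vt col c E₀ - θ₀ := by
    rw [sgm_zero]; ring
  have e1 : vt col c (sgm E₀ E₁ 1) - ((1 - 1) * θ₀ + 1 * θ₁) = vt col c E₁ - θ₁ := by
    rw [sgm_one]; ring
  have hmem : (0 : ℝ) ∈ Set.Icc (vt col c (sgm E₀ E₁ 1) - ((1 - 1) * θ₀ + 1 * θ₁))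
      (vt col c (sgm E₀ E₁ 0) - ((1 - 0) * θ₀ + 0 * θ₁)) := by
    rw [e0, e1]
    exact ⟨by linarith, by linarith⟩
  obtain ⟨t, ht, ht0⟩ := intermediate_value_Icc' (zero_le_one) hc hmem
  obtain ⟨a, ha, hca, hva⟩ := vt_val hg hcol (valid_sgm ht.1 ht.2 hv₀ hv₁)
  have ht0' : vt col c (sgm E₀ E₁ t) - ((1 - t) * θ₀ + t * θ₁) = 0 := ht0
  rw [hva] at ht0'
  unfold sgm at ht0'
  have e2 : (1 - t) * (E₀ a - θ₀) + t * (E₁ a - θ₁) = 0 := by linarith
  have t0 := ht.1
  have t1 := ht.2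
  rcases h a ha hca with ⟨k0, k1⟩ | ⟨k0, k1⟩
  · rcases eq_or_lt_of_le t0 with h3 | h3
    · rw [← h3] at e2; linarith
    · have := mul_pos h3 (sub_pos.2 k1)
      have := mul_nonneg (sub_nonneg.2 t1) (sub_pos.2 k0).le
      linarith
  · rcases eq_or_lt_of_le t0 with h3 | h3
    · rw [← h3] at e2; linarith
    · have := mul_neg_of_pos_of_neg h3 (sub_neg.2 k1)
      have := mul_nonpos_of_nonneg_of_nonpos (sub_nonneg.2 t1) (sub_neg.2 k0).le
      linarith

theorem vt_thr {col : W → Bool} {c : Cfg W} {E₀ E₁ : W → ℝ} {M₀ M₁ θ₀ θ₁ : ℝ} (hg : c.Good)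
    (hcol : ColOK col c) (hv₀ : c.Valid E₀ M₀) (hv₁ : c.Valid E₁ M₁)
    (h : ∀ x ∈ c.S, col x = true → (θ₀ < E₀ x ∧ θ₁ < E₁ x) ∨ (E₀ x < θ₀ ∧ E₁ x < θ₁)) :
    θ₀ < vt col c E₀ ↔ θ₁ < vt col c E₁ :=
  ⟨vt_thr_imp hg hcol hv₀ hv₁ h, vt_thr_imp hg hcol hv₁ hv₀ fun x hx hc => by
    rcases h x hx hc with h1 | h1
    · exact Or.inl ⟨h1.2, h1.1⟩
    · exact Or.inr ⟨h1.2, h1.1⟩⟩

/-- the value depends only on the points of colour `true` -/
theorem vt_ind {col : W → Bool} {c : Cfg W} {E₀ E₁ : W → ℝ} {M₀ M₁ : ℝ} (hg : c.Good)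
    (hcol : ColOK col c) (hv₀ : c.Valid E₀ M₀) (hv₁ : c.Valid E₁ M₁)
    (h : ∀ x ∈ c.S, col x = true → E₀ x = E₁ x) : vt col c E₀ = vt col c E₁ := by
  classical
  have key : ∀ (E₀ E₁ : W → ℝ) (M₀ M₁ : ℝ), c.Valid E₀ M₀ → c.Valid E₁ M₁ →
      (∀ x ∈ c.S, col x = true → E₀ x = E₁ x) → vt col c E₀ ≤ vt col c E₁ := by
    intro E₀ E₁ M₀ M₁ hv₀ hv₁ h
    by_contra hcon
    push Not at hcon
    -- a threshold strictly between, avoiding the finitely many values
    obtain ⟨θ, hθ, hθ'⟩ : ∃ θ ∈ Set.Ioo (vt col c E₁) (vt col c E₀), θ ∉ (c.S.image E₀ : Set ℝ) := by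
      have hinf : (Set.Ioo (vt col c E₁) (vt col c E₀)).Infinite := Set.Ioo_infinite hcon
      obtain ⟨θ, h1, h2⟩ := hinf.exists_notMem_finset (c.S.image E₀)
      exact ⟨θ, h1, by exact_mod_cast h2⟩
    have h3 := (vt_thr (θ₀ := θ) (θ₁ := θ) hg hcol hv₀ hv₁ (fun x hx hc => by
      have hne : E₀ x ≠ θ := fun he => hθ' (by
        rw [Finset.mem_coe, Finset.mem_image]; exact ⟨x, hx, he⟩)
      rw [← h x hx hc]
      rcases lt_or_gt_of_ne hne with h4 | h4
      · exact Or.inr ⟨h4, h4⟩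
      · exact Or.inl ⟨h4, h4⟩)).1 hθ.2
    exact absurd h3 (not_lt.2 hθ.1.le)
  exact le_antisymm (key E₀ E₁ M₀ M₁ hv₀ hv₁ h)
    (key E₁ E₀ M₁ M₀ hv₁ hv₀ fun x hx hc => (h x hx hc).symm)

/-! ### validity -/

theorem valid_congr {c : Cfg W} {E E' : W → ℝ} {M : ℝ} (hg : c.Good) (h : ∀ x ∈ c.S, E' x = E x)
    (hv : c.Valid E M) : c.Valid E' M := by
  intro b T hT hPD
  have e : ∑ x ∈ T, (M + c.dl E' b x) = ∑ x ∈ T, (M + c.dl E b x) := by
    refine Finset.sum_congr rfl fun x hx => ?_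
    unfold Cfg.dl
    rw [h x (hT hx), h _ (hg.mem b x (hT hx))]
  rw [e]
  exact hv b T hT hPD

theorem vt_congr_val {col : W → Bool} {c : Cfg W} {E E' : W → ℝ} {M : ℝ} (hg : c.Good)
    (hcol : ColOK col c) (hv : c.Valid E M) (h : ∀ x ∈ c.S, E' x = E x) :
    vt col c E' = vt col c E :=
  vt_ind hg hcol (valid_congr hg h hv) hv fun x hx _ => h x hx

theorem valid_lin {c : Cfg W} {E G : W → ℝ} {M M' δ : ℝ} (hv : c.Valid E M) (hv' : c.Valid G M')
    (hδ : 0 ≤ δ) : c.Valid (fun x => E x + δ * G x) (M + δ * M') := by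
  intro b T hT hPD
  have k0 := hv b T hT hPD
  have k1 := mul_le_mul_of_nonneg_left (hv' b T hT hPD) hδ
  have e : ∑ x ∈ T, (M + δ * M' + c.dl (fun x => E x + δ * G x) b x) =
      ∑ x ∈ T, (M + c.dl E b x) + δ * ∑ x ∈ T, (M' + c.dl G b x) := by
    rw [Finset.mul_sum, ← Finset.sum_add_distrib]
    refine Finset.sum_congr rfl fun x _ => ?_
    unfold Cfg.dl
    ring
  rw [e]
  linarith

/-- lowering the level down to the smallest increment -/
theorem valid_min {c : Cfg W} {E : W → ℝ} {M : ℝ} {b : Bool} {x : W} (hg : c.Good)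
    (hv : c.Valid E M) (hx : x ∈ c.S) (hmin : ∀ b', ∀ y ∈ c.S, c.dl E b x ≤ c.dl E b' y) :
    c.Valid E (-(c.dl E b x)) := by
  classical
  have hM0 : 0 ≤ -(c.dl E b x) := by
    have := hmin b _ (hg.mem b x hx)
    rw [Cfg.dl_inv hg hx] at this
    linarith
  have hMM : -(c.dl E b x) ≤ M := by have := hv.ge hg hx (b := b); linarith
  have hle : ∀ b', ∀ y ∈ c.S, c.dl E b' y ≤ -(c.dl E b x) := by
    intro b' y hy
    have := hmin b' _ (hg.mem b' y hy)
    rw [Cfg.dl_inv hg hy] at this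
    linarith
  intro b' T hT hPD
  rcases Nat.lt_or_ge T.card 2 with h2 | h2
  · rcases Nat.lt_or_ge T.card 1 with h1 | h1
    · have : T = ∅ := by rw [← Finset.card_eq_zero]; omega
      subst this; simp only [Finset.sum_empty]; linarith
    · obtain ⟨y, rfl⟩ := Finset.card_eq_one.1 (by omega : T.card = 1)
      have := hle b' y (hT (by simp))
      simp only [Finset.sum_singleton]; linarith
  · have h3 := hv b' T hT hPD
    rw [Finset.sum_add_distrib, Finset.sum_const, nsmul_eq_mul] at h3 ⊢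
    have h4 : (2 : ℝ) ≤ T.card := by exact_mod_cast h2
    nlinarith

theorem min_of_valid {c : Cfg W} {E : W → ℝ} {b : Bool} {x : W} (hg : c.Good)
    (hv : c.Valid E (-(c.dl E b x))) : ∀ b', ∀ y ∈ c.S, c.dl E b x ≤ c.dl E b' y := by
  intro b' y hy
  have := hv.ge hg hy (b := b')
  linarith

/-! ### robust functions -/

/-- `F` is an interior point of the set of valid functions -/
def Rob (c : Cfg W) (F : W → ℝ) : Prop :=
  ∃ ε > 0, ∀ F' : W → ℝ, (∀ x ∈ c.S, |F' x - F x| ≤ ε) → ∃ M, c.Valid F' M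

theorem Rob.valid {c : Cfg W} {F : W → ℝ} (h : Rob c F) : ∃ M, c.Valid F M := by
  obtain ⟨ε, hε, h⟩ := h
  exact h F fun x _ => by simpa using hε.le

theorem Rob.near {c : Cfg W} {F : W → ℝ} (h : Rob c F) :
    ∃ ε > 0, ∀ F' : W → ℝ, (∀ x ∈ c.S, |F' x - F x| ≤ ε) → Rob c F' := by
  obtain ⟨ε, hε, h⟩ := h
  refine ⟨ε / 2, by linarith, fun F' hF' => ⟨ε / 2, by linarith, fun F'' hF'' => h F'' ?_⟩⟩
  intro x hx
  have h1 := abs_le.1 (hF' x hx)
  have h2 := abs_le.1 (hF'' x hx)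
  rw [abs_le]
  constructor <;> linarith

theorem rob_lin {c : Cfg W} {E G : W → ℝ} {M δ : ℝ} (hg : c.Good) (hv : c.Valid E M) (hG : Rob c G)
    (hδ : 0 < δ) : Rob c (fun x => E x + δ * G x) := by
  obtain ⟨ε, hε, h⟩ := hG
  refine ⟨δ * ε, by positivity, fun F' hF' => ?_⟩
  obtain ⟨M', hM'⟩ := h (fun x => (F' x - E x) / δ) (fun x hx => by
    have := hF' x hx
    have e : (F' x - E x) / δ - G x = (F' x - (E x + δ * G x)) / δ := by field_simp; ring
    rw [e, abs_div, abs_of_pos hδ, div_le_iff₀ hδ]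
    linarith)
  refine ⟨M + δ * M', valid_congr hg (fun x _ => ?_) (valid_lin hv hM' hδ.le)⟩
  field_simp
  ring

/-- pushing the two ends of a minimal leaf a little apart makes it strictly minimal -/
theorem push_min {c : Cfg W} {F F' : W → ℝ} {b : Bool} {x : W} {κ η : ℝ} (hg : c.Good)
    (hc : 2 < c.S.card) (hx : x ∈ c.S) (hmin : ∀ b', ∀ y ∈ c.S, c.dl F b x ≤ c.dl F b' y)
    (hη : 0 ≤ η) (hηκ : η ≤ κ) (hF' : ∀ y ∈ c.S, y ≠ x → y ≠ c.f b x → |F' y - F y| ≤ η)
    (h1 : F' x = F x + sg b * κ) (h2 : F' (c.f b x) = F (c.f b x) - sg b * κ) :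
    ∀ b', ∀ y ∈ c.S, c.dl F' b x ≤ c.dl F' b' y := by
  have hq := hg.mem b x hx
  have hκ : 0 ≤ κ := hη.trans hηκ
  have hss := sg_sq b
  have hd0 : c.dl F b x ≤ 0 := by
    have := hmin b _ hq
    rw [Cfg.dl_inv hg hx] at this
    linarith
  have e0 : c.dl F' b x = c.dl F b x - 2 * κ := by
    unfold Cfg.dl
    rw [h1, h2]
    have : sg b * (F (c.f b x) - sg b * κ - (F x + sg b * κ)) =
      sg b * (F (c.f b x) - F x) - 2 * (sg b * sg b) * κ := by ring
    rw [this, hss]; ring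
  have habs : ∀ y ∈ c.S, |F' y - F y| ≤ κ := by
    intro y hy
    by_cases hyx : y = x
    · rw [hyx, h1]
      have : |F x + sg b * κ - F x| = κ := by
        rw [show F x + sg b * κ - F x = sg b * κ by ring, abs_mul]
        have : |sg b| = 1 := by cases b <;> simp [sg]
        rw [this, one_mul, abs_of_nonneg hκ]
      rw [this]
    · by_cases hyq : y = c.f b x
      · rw [hyq, h2]
        have : |F (c.f b x) - sg b * κ - F (c.f b x)| = κ := by
          rw [show F (c.f b x) - sg b * κ - F (c.f b x) = -(sg b * κ) by ring, abs_neg, abs_mul]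
          have : |sg b| = 1 := by cases b <;> simp [sg]
          rw [this, one_mul, abs_of_nonneg hκ]
        rw [this]
      · exact (hF' y hy hyx hyq).trans hηκ
  intro b' y hy
  have hfy := hg.mem b' y hy
  have e1 : c.dl F' b' y = c.dl F b' y + sg b' * ((F' (c.f b' y) - F (c.f b' y)) - (F' y - F y)) := by
    unfold Cfg.dl; ring
  have e2 := hmin b' y hy
  have hs1 : |sg b'| = 1 := by cases b' <;> simp [sg]
  have h3 := abs_le.1 (habs y hy)
  have h4 := abs_le.1 (habs _ hfy)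
  have h5 : |sg b' * ((F' (c.f b' y) - F (c.f b' y)) - (F' y - F y))| ≤ 2 * κ := by
    rw [abs_mul, hs1, one_mul, abs_le]
    constructor <;> linarith
  have h6 := (abs_le.1 h5).1
  rw [e0, e1]
  linarith

theorem rob_del {c : Cfg W} {F : W → ℝ} {b : Bool} {x : W} (hg : c.Good) (hc : 2 < c.S.card)
    (hl : c.Leaf b x) (hv : c.Valid F (-(c.dl F b x))) (hR : Rob c F) : Rob (c.del b x) F := by
  classical
  obtain ⟨ε, hε, h⟩ := hR
  refine ⟨ε, hε, fun F' hF' => ?_⟩
  have hx := hl.1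
  have hq := hg.mem b x hx
  have hne := hg.ne b x hx
  let F'' : W → ℝ := fun y => if y = x then F x + sg b * ε else
    if y = c.f b x then F (c.f b x) - sg b * ε else F' y
  have k1 : F'' x = F x + sg b * ε := by simp [F'']
  have k2 : F'' (c.f b x) = F (c.f b x) - sg b * ε := by simp [F'', hne]
  have k3 : ∀ y, y ≠ x → y ≠ c.f b x → F'' y = F' y := by
    intro y h1 h2; simp [F'', h1, h2]
  have hs : |sg b| = 1 := by cases b <;> simp [sg]
  have hnear : ∀ y ∈ c.S, |F'' y - F y| ≤ ε := by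
    intro y hy
    by_cases h1 : y = x
    · rw [h1, k1, show F x + sg b * ε - F x = sg b * ε by ring, abs_mul, hs, one_mul,
        abs_of_pos hε]
    · by_cases h2 : y = c.f b x
      · rw [h2, k2, show F (c.f b x) - sg b * ε - F (c.f b x) = -(sg b * ε) by ring, abs_neg,
          abs_mul, hs, one_mul, abs_of_pos hε]
      · rw [k3 y h1 h2]
        exact hF' y (Cfg.mem_del.2 ⟨h2, h1, hy⟩)
  obtain ⟨M, hM⟩ := h F'' hnear
  have hmin'' := push_min hg hc hx (min_of_valid hg hv) hε.le le_rfl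
    (fun y hy h1 h2 => hnear y hy) k1 k2
  have hv'' := valid_min hg hM hx hmin''
  refine ⟨_, valid_congr (Cfg.good_del hg hc hl) (fun y hy => ?_) (valid_dl hg hc hl hv'')⟩
  rw [Cfg.mem_del] at hy
  exact (k3 y hy.2.1 hy.1).symm

/-! ### exchange of the two pages -/

/-- exchange of the two pages -/
def swp (c : Cfg W) : Cfg W := ⟨c.S, fun b => c.f (!b)⟩

@[simp] theorem swp_S (c : Cfg W) : (swp c).S = c.S := rfl
@[simp] theorem swp_f (c : Cfg W) (b : Bool) (x : W) : (swp c).f b x = c.f (!b) x := rfl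

theorem swp_swp (c : Cfg W) : swp (swp c) = c := by
  unfold swp
  simp

theorem swp_good {c : Cfg W} (h : c.Good) : (swp c).Good where
  mem := fun b x hx => h.mem (!b) x hx
  inv := fun b x hx => h.inv (!b) x hx
  ne := fun b x hx => h.ne (!b) x hx
  nc := fun b x hx y hy => h.nc (!b) x hx y hy
  conn := fun A hA hne hcl => h.conn A hA hne fun b x hx => by
    have := hcl (!b) x hx
    simpa using this
  nonem := h.nonem

theorem swp_dl (c : Cfg W) (E : W → ℝ) (b : Bool) (x : W) :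
    (swp c).dl (fun y => - E y) b x = c.dl E (!b) x := by
  unfold Cfg.dl
  rw [swp_f, sg_not]; ring

theorem swp_valid {c : Cfg W} {E : W → ℝ} {M : ℝ} (hv : c.Valid E M) :
    (swp c).Valid (fun y => - E y) M := by
  intro b T hT hPD
  have := hv (!b) T hT hPD
  simp only [swp_dl]
  exact this

theorem swp_leaf {c : Cfg W} {b : Bool} {x : W} (h : c.Leaf b x) : (swp c).Leaf (!b) x := by
  refine ⟨h.1, fun z hz => ?_⟩
  rw [swp_f, Bool.not_not]
  exact h.2 z hz

theorem swp_del (c : Cfg W) (b : Bool) (x : W) : swp (c.del b x) = (swp c).del (!b) x := by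
  have hS : (swp (c.del b x)).S = ((swp c).del (!b) x).S := by
    simp [swp, Cfg.del]
  have hf : (swp (c.del b x)).f = ((swp c).del (!b) x).f := by
    funext b' y
    simp only [swp, Cfg.del, Bool.not_not]
    by_cases h : b' = !b
    · subst h; simp
    · have h' : (!b') ≠ b := fun he => h (by rw [← he]; simp)
      simp only [h, h', if_false]
  cases h1 : swp (c.del b x)
  cases h2 : (swp c).del (!b) x
  rw [h1] at hS hf
  rw [h2] at hS hf
  simp only at hS hf
  rw [hS, hf]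

theorem swp_col {c : Cfg W} {col : W → Bool} (h : ColOK col c) : ColOK col (swp c) :=
  fun b x hx => h (!b) x hx

theorem swp_out {E : W → ℝ} {col : W → Bool} {c : Cfg W} {a : W} (h : Out E col c a) :
    Out (fun y => - E y) col (swp c) a := by
  induction h with
  | base h1 h2 h3 => exact Out.base h1 h2 h3
  | @step c b x a h1 h2 h3 _ ih =>
    have e : (swp c).dl (fun y => - E y) (!b) x = c.dl E b x := by rw [swp_dl, Bool.not_not]
    refine Out.step h1 (swp_leaf h2) ?_ ?_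
    · rw [e]; exact swp_valid h3
    · rw [← swp_del]; exact ih

theorem vt_swp {col : W → Bool} {c : Cfg W} {E : W → ℝ} {M : ℝ} (hg : c.Good)
    (hcol : ColOK col c) (hv : c.Valid E M) :
    vt col (swp c) (fun y => - E y) = - vt col c E := by
  obtain ⟨a, ha⟩ := exists_out' hg hcol hv
  rw [vt_eq hg hcol ha, vt_eq (swp_good hg) (swp_col hcol) (swp_out ha)]

end Vale.Agent.P040.H688
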